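import Vale.Agent.P113.Bdl.B3

/-!
# P113: one family of flows for all viscosities
-/

namespace Vale.Agent.P113.H584

open Vale.Agent.P113
open scoped ContDiff Topology
open Set Filter Encodable

/-- The dichotomy for the trajectories: recurrence to the open set, or rest after time one. -/
theorem traj_dichotomy {r : ℝ} {ψ : ℝ → ℝ} (hψ : Function.Periodic ψ 1)
    {X : ℝ → E3} (hX : IsTrajectory (vel r ψ) 0 X) :
    (0 < ψ (r * dispI) → ∀ T : ℝ, ∃ t : ℝ, T ≤ t ∧ 0 ≤ t ∧ proj (X t) ∈ openSet) ∧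
      (ψ (r * dispI) = 0 → ∀ t : ℝ, 1 ≤ t → X t = X 1) := by
  obtain ⟨hX0, hX⟩ := hX
  have hcomp : ∀ (i : Fin 3) (t : ℝ), 0 ≤ t →
      HasDerivWithinAt (fun s => X s i) (vel r ψ t (proj (X t)) i) (Ici 0) t :=
    fun i t ht => hX t ht i
  have hint : ∀ i : Fin 3, ∃ n : ℤ, X 0 i = n := by
    intro i
    have h1 := congrFun hX0 i
    have h2 : ((X 0 i : ℝ) : UnitAddCircle) = 0 := h1
    rw [AddCircle.coe_eq_zero_iff] at h2
    obtain ⟨n, hn⟩ := h2
    exact ⟨n, by simpa using hn.symm⟩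
  obtain ⟨n0, hn0⟩ := hint 0
  obtain ⟨n1, hn1⟩ := hint 1
  have h0 : ∀ t, 0 ≤ t → X t 0 = n0 + r * dispG t := by
    intro t ht
    have h := eqOn_of_deriv (g := fun s => X s 0) (k := fun s => r * dispG s)
      (g' := fun s => r * bump s) ?_ ?_ ht
    · simp only [dispG_zero, mul_zero, sub_zero, hn0] at h
      linarith
    · intro s hs
      have := hcomp 0 s hs
      rw [vel_proj hψ] at this
      simpa [mul_comm] using this
    · intro s hs
      exact ((dispG_hasDerivAt s).const_mul r).hasDerivWithinAt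
  have h1 : ∀ t, 0 ≤ t → X t 1 = n1 + dispH t * ψ (r * dispI) := by
    intro t ht
    have h := eqOn_of_deriv (g := fun s => X s 1) (k := fun s => dispH s * ψ (r * dispI))
      (g' := fun s => pulse s * ψ (r * dispI)) ?_ ?_ ht
    · simp only [dispH_zero, zero_mul, sub_zero, hn1] at h
      linarith
    · intro s hs
      have := hcomp 1 s hs
      rw [vel_proj hψ] at this
      have e2 : ψ (X s 0) = ψ (r * dispG s) := by
        rw [h0 s hs, add_comm]
        have := hψ.int_mul n0 (r * dispG s)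
        simpa using this
      simp only [Matrix.cons_val_one, Matrix.cons_val_zero, e2] at this
      rwa [pulse_mul_eq hs] at this
    · intro s hs
      exact ((dispH_hasDerivAt s).mul_const _).hasDerivWithinAt
  have h2 : ∀ t, 0 ≤ t → X t 2 = X 0 2 := by
    intro t ht
    have h := eqOn_of_deriv (g := fun s => X s 2) (k := fun _ => (0 : ℝ))
      (g' := fun _ => (0 : ℝ)) ?_ ?_ ht
    · simp only [sub_zero] at h
      exact h
    · intro s hs
      have := hcomp 2 s hs
      rw [vel_proj hψ] at this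
      simpa using this
    · intro s hs
      exact hasDerivWithinAt_const _ _ _
  refine ⟨?_, ?_⟩
  · intro hpos T
    have hcont : Continuous dispH :=
      continuous_iff_continuousAt.2 fun t => (dispH_hasDerivAt t).continuousAt
    set T' : ℝ := max T 0 with hT'
    -- an integer beyond the value at `T'`
    obtain ⟨m, hm⟩ := exists_nat_ge (dispH T' * ψ (r * dispI))
    have hval : dispH T' ≤ (m + 1 / 2) / ψ (r * dispI) := by
      rw [le_div_iff₀ hpos]
      linarith
    obtain ⟨t1, ht1, ht1'⟩ : ∃ t1 : ℝ, T' ≤ t1 ∧ (m + 1 / 2) / ψ (r * dispI) ≤ dispH t1 := by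
      have := (dispH_tendsto.eventually_ge_atTop ((m + 1 / 2) / ψ (r * dispI))).and
        (eventually_ge_atTop T')
      obtain ⟨t1, h⟩ := this.exists
      exact ⟨t1, h.2, h.1⟩
    obtain ⟨t, ht, hteq⟩ := intermediate_value_Icc ht1 hcont.continuousOn ⟨hval, ht1'⟩
    have ht0 : 0 ≤ t := (le_max_right T 0).trans ht.1
    refine ⟨t, (le_max_left T 0).trans ht.1, ht0, ?_⟩
    refine ⟨1/2, ⟨by norm_num, by norm_num⟩, ?_⟩
    unfold proj
    simp only []
    rw [h1 t ht0, hteq]
    have e : ((m : ℝ) + 1 / 2) / ψ (r * dispI) * ψ (r * dispI) = ((m : ℤ) : ℝ) + 1/2 := by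
      rw [div_mul_cancel₀ _ hpos.ne']
      simp
    rw [e, AddCircle.coe_add, AddCircle.coe_add, coe_int_circle, coe_int_circle, zero_add,
      zero_add]
  · intro hz t ht
    have ht0 : (0 : ℝ) ≤ t := zero_le_one.trans ht
    funext i
    fin_cases i
    · simp only [Fin.zero_eta, Fin.isValue]
      rw [h0 t ht0, h0 1 zero_le_one, dispG_of_one_le ht, dispG_of_one_le le_rfl]
    · simp only [Fin.mk_one, Fin.isValue]
      rw [h1 t ht0, h1 1 zero_le_one, hz, mul_zero, mul_zero]
    · simp only [Fin.reduceFinMk, Fin.isValue]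
      rw [h2 t ht0, h2 1 zero_le_one]

theorem psiM_le (M : Machine) (x : ℝ) : psiM M x ≤ Real.exp 1 := by
  unfold psiM per phi
  have hs : Summable (fun n : ℕ => (1 : ℝ) / (n.factorial : ℝ)) := by
    simpa using Real.summable_pow_div_factorial 1
  have hle : ∀ n : ℕ, coefM M n / (n.factorial : ℝ) * bump (2 ^ (n + 1) * Int.fract x - 1) ≤
      1 / (n.factorial : ℝ) := by
    intro n
    have h1 : coefM M n ≤ 1 := (le_abs_self _).trans (abs_coefM_le M n)
    have h2 : coefM M n / (n.factorial : ℝ) ≤ 1 / (n.factorial : ℝ) := by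
      gcongr
    calc coefM M n / (n.factorial : ℝ) * bump (2 ^ (n + 1) * Int.fract x - 1)
        ≤ 1 / (n.factorial : ℝ) * 1 :=
          mul_le_mul h2 (bump_le_one _) (bump_nonneg _) (by positivity)
      _ = 1 / (n.factorial : ℝ) := mul_one _
  have hnn : ∀ n : ℕ, 0 ≤ coefM M n / (n.factorial : ℝ) *
      bump (2 ^ (n + 1) * Int.fract x - 1) := fun n =>
    mul_nonneg (div_nonneg (coefM_nonneg M n) (Nat.cast_nonneg _)) (bump_nonneg _)
  calc ∑' n : ℕ, coefM M n / (n.factorial : ℝ) * bump (2 ^ (n + 1) * Int.fract x - 1)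
      ≤ ∑' n : ℕ, (1 : ℝ) / (n.factorial : ℝ) :=
        (hs.of_nonneg_of_le hnn hle).tsum_le_tsum hle hs
    _ = Real.exp 1 := by
        rw [Real.exp_eq_exp_ℝ, NormedSpace.exp_eq_tsum_div]
        simp

theorem abs_pulse_le (t : ℝ) : |pulse t| ≤ 1 := by
  unfold pulse
  have h1 := bper_nonneg t
  have h2 : bper t ≤ 1 := bump_le_one _
  have h3 := bump_nonneg t
  have h4 := bump_le_one t
  rw [abs_le]
  constructor <;> linarith

theorem vel_bound {r C : ℝ} (hr : |r| ≤ C) (M : Machine) (t : ℝ) (θ : T3) (i : Fin 3) :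
    |vel r (psiM M) t θ i| ≤ C + Real.exp 1 := by
  have hC : 0 ≤ C := (abs_nonneg _).trans hr
  have he := Real.exp_pos 1
  unfold vel
  fin_cases i
  · simp only [Fin.zero_eta, Fin.isValue, Matrix.cons_val_zero]
    rw [abs_mul, abs_of_nonneg (bump_nonneg t)]
    have := mul_le_mul (bump_le_one t) hr (abs_nonneg _) zero_le_one
    linarith
  · simp only [Fin.mk_one, Fin.isValue, Matrix.cons_val_one, Matrix.cons_val_zero]
    have hc0 : 0 ≤ circ (psiM M) (θ 0) := psiM_nonneg M _
    have hc1 : circ (psiM M) (θ 0) ≤ Real.exp 1 := psiM_le M _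
    rw [abs_mul, abs_of_nonneg hc0]
    have := mul_le_mul (abs_pulse_le t) hc1 hc0 zero_le_one
    linarith
  · simp only [Fin.reduceFinMk, Fin.isValue, Matrix.cons_val]
    rw [abs_zero]
    linarith

/-- One family of velocity fields, one point and one open set for all viscosities. -/
theorem universal :
    ∃ (a : T3) (O : Set T3) (u : Machine × List ℕ → ℝ → T3 → E3),
      IsOpen O ∧ (∃ C : ℝ, ∀ P t x i, |u P t x i| ≤ C) ∧
      (∀ (M : Machine) (w : List ℕ), ∃ X, IsTrajectory (u (M, w)) a X) ∧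
      (∀ (M : Machine) (w : List ℕ) (X : ℝ → E3), IsTrajectory (u (M, w)) a X →
        (HaltsOn M w → ∀ T : ℝ, ∃ t : ℝ, T ≤ t ∧ 0 ≤ t ∧ proj (X t) ∈ O) ∧
        (¬ HaltsOn M w → (∀ t : ℝ, 0 ≤ t → proj (X t) ∉ O) ∧ ∀ t : ℝ, 1 ≤ t → X t = X 1)) ∧
      ∀ ν : ℝ, 0 ≤ ν → IsComputableReal ν →
        ∃ (compile : Machine × List ℕ → Nat.Partrec.Code) (f : Machine × List ℕ → ℝ → T3 → E3),
          IsSplitForceCompiler compile f ∧ (∀ P t x, 1 ≤ t → f P (t + 1) x = f P t x) ∧
          ∀ (M : Machine) (w : List ℕ),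
            IsGlobalSmoothSolution ν (f (M, w)) (u (M, w)) (fun _ _ => 0) ∧
            ∀ T : ℝ, 0 < T → ∀ v q, IsClassicalSolution ν T (f (M, w)) v q →
              ∀ t ∈ Set.Icc 0 T, v t = u (M, w) t ∧ q t = fun _ => 0 := by
  obtain ⟨κ, hκ1, hκ2⟩ := exists_kappa
  have hI := dispI_pos
  have hκ0 : 0 < fracVal κ := by
    by_contra hcon
    have := mul_nonpos_of_nonpos_of_nonneg (not_lt.1 hcon) hI.le
    linarith
  refine ⟨0, openSet, fun P => vel (fracVal (ampF κ P.2)) (psiM P.1), openSet_isOpen,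
    ⟨fracVal κ + Real.exp 1, ?_⟩, ?_, ?_, ?_⟩
  · rintro ⟨M, w⟩ t x i
    refine vel_bound ?_ M t x i
    rw [fracVal_ampF, abs_mul, abs_of_pos hκ0, abs_of_nonneg (by positivity)]
    exact mul_le_of_le_one_right hκ0.le (pow_le_one₀ (by norm_num) (by norm_num))
  · intro M w
    exact ⟨_, traj_isTrajectory _ (psiM_periodic M)⟩
  · intro M w X hX
    have hiff := psiM_ampF_pos_iff hκ1 hκ2 M w
    have hd := traj_dichotomy (psiM_periodic M) hX
    have he := traj_enters_iff (psiM_periodic M) (psiM_nonneg M) hX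
    refine ⟨fun h => hd.1 (hiff.2 h), fun h => ⟨fun t ht hm => ?_, hd.2 ?_⟩⟩
    · exact h (hiff.1 (he.1 ⟨t, ht, hm⟩))
    · refine le_antisymm (not_lt.1 fun h' => h (hiff.1 h')) (psiM_nonneg M _)
  · intro ν hν hc
    have hb : BumpUCR := bump_ucr
    obtain ⟨compile, hcomp, hC⟩ := exists_compiler (A := Machine × List ℕ) hb hc (ucr_ampF κ)
      (ψ := fun P => psiM P.1) (ucr_psiM_pair hb)
      (f := fun P => frc ν (fracVal (ampF κ P.2)) (psiM P.1))
      (fun P i α t x => mixed_frc (psiM_periodic P.1) (psiM_contDiff P.1) i α t x)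
    have htail : ∀ M : Machine,
        (∃ τ : ℝ, 0 < τ ∧ ∀ (w : List ℕ) (t : ℝ), 1 ≤ t → ∀ x,
          frc ν (fracVal (ampF κ w)) (psiM M) (t + τ) x =
            frc ν (fracVal (ampF κ w)) (psiM M) t x) ∧
        ∀ (w w' : List ℕ) (t : ℝ), 1 ≤ t → ∀ x,
          frc ν (fracVal (ampF κ w)) (psiM M) t x = frc ν (fracVal (ampF κ w')) (psiM M) t x :=
      fun M => ⟨⟨1, one_pos, fun w t ht x => frc_periodic ht x⟩, fun w w' t ht x => by
        simp only [frc_of_one_le ht]⟩
    refine ⟨compile, fun P => frc ν (fracVal (ampF κ P.2)) (psiM P.1),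
      ⟨⟨hcomp, fun P i => frc_isSmooth (psiM_periodic P.1) (psiM_contDiff P.1) i, hC,
        ⟨1, zero_le_one, htail⟩⟩, ⟨1, zero_le_one, ⟨deriv bump, ampF κ, computable_ampF κ,
          fun M w t h0 h1 x => frc_of_le_one h0 h1 x⟩, htail⟩⟩,
      fun P t x ht => frc_periodic ht x, fun M w => ⟨?_, ?_⟩⟩
    · exact vel_global (psiM_periodic M) (psiM_contDiff M)
    · intro T hT v q hv t ht
      exact IsClassicalSolution.unique hν hT
        (vel_classical (psiM_periodic M) (psiM_contDiff M) hT) hv t ht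

end Vale.Agent.P113.H584
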